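import Mathlib
import Vale.Agent.Lib.P160.RV.Defs

/-!
# P160: the row bound from the subset sum bound (piece SS-5, backup copy)
-/

namespace Vale.Agent.Lib.P160.H88

open Finset Vale.Agent.Lib.P160

theorem ss_row_of
    (h : ∃ C : ℝ, 0 < C ∧ ∀ (n : ℕ) (a : Fin n → ℝ), (∀ i, 0 < a i) →
      StrictMono a → ∀ x : ℝ,
      (((univ : Finset (Finset (Fin n))).filter fun S => ∑ i ∈ S, a i = x).card : ℝ) *
        ((n : ℝ) * Real.sqrt n) ≤ C * 2 ^ n) :
    ∃ C : ℝ, 0 < C ∧ ∀ (κ : Type) [Fintype κ] [DecidableEq κ] (w : κ → ℝ) (c : ℝ)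
      (D : ℕ), D ≤ dabs w →
      ((univ.filter fun x : κ → ℤˣ => sdot x w = c).card : ℝ) * ((D : ℝ) * Real.sqrt (D : ℝ)) ≤
        C * 2 ^ Fintype.card κ := by
  obtain ⟨C, hC, hS⟩ := h
  refine ⟨C, hC, ?_⟩
  intro κ _ _ w c D hD
  classical
  obtain ⟨T, hTsub, hTcard⟩ := Finset.exists_subset_card_eq hD
  let a : Fin D → ℝ := fun i => T.orderEmbOfFin hTcard i
  have ha_mono : StrictMono a := (T.orderEmbOfFin hTcard).strictMono
  have ha_mem : ∀ i, a i ∈ T := fun i => Finset.orderEmbOfFin_mem T hTcard i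
  have hex : ∀ i, ∃ j, w j ≠ 0 ∧ |w j| = a i := by
    intro i
    have h1 := hTsub (ha_mem i)
    simp only [mem_image, mem_filter, mem_univ, true_and] at h1
    exact h1
  choose e he0 hea using hex
  have he_inj : Function.Injective e := by
    intro i i' hii
    apply ha_mono.injective
    rw [← hea i, ← hea i', hii]
  have ha_pos : ∀ i, 0 < a i := fun i => by
    rw [← hea i]; exact abs_pos.2 (he0 i)
  set J : Finset κ := univ.image e with hJ
  have hJcard : J.card = D := by
    rw [hJ, Finset.card_image_of_injective _ he_inj, Finset.card_univ, Fintype.card_fin]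
  let r : (κ → ℤˣ) → ({j // j ∉ J} → ℤˣ) := fun x j => x j.1
  let P : (κ → ℤˣ) → Finset (Fin D) := fun x => univ.filter fun i => e i ∈ posSet w x
  have hterm : ∀ (x : κ → ℤˣ) (i : Fin D),
      ((x (e i) : ℤ) : ℝ) * w (e i) = if i ∈ P x then a i else -a i := by
    intro x i
    rw [term_eq w x (e i), hea i]
    simp only [P, mem_filter, mem_univ, true_and]
  have hkey : ∀ x : κ → ℤˣ, sdot x w =
      2 * ∑ i ∈ P x, a i - ∑ i, a i + ∑ j ∈ Jᶜ, ((x j : ℤ) : ℝ) * w j := by
    intro x
    unfold sdot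
    rw [← Finset.sum_add_sum_compl J (fun j => ((x j : ℤ) : ℝ) * w j)]
    congr 1
    rw [hJ, Finset.sum_image (fun i _ i' _ hii => he_inj hii)]
    rw [Finset.sum_congr rfl (fun i _ => hterm x i)]
    have h2 : ∀ i, (if i ∈ P x then a i else -a i) =
        2 * (if i ∈ P x then a i else 0) - a i := by
      intro i
      split_ifs <;> ring
    rw [Finset.sum_congr rfl (fun i _ => h2 i), Finset.sum_sub_distrib, ← Finset.mul_sum,
      Finset.sum_ite_mem, Finset.univ_inter]
  set X : Finset (κ → ℤˣ) := univ.filter fun x : κ → ℤˣ => sdot x w = c with hX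
  have hDnn : (0 : ℝ) ≤ (D : ℝ) * Real.sqrt (D : ℝ) :=
    mul_nonneg (Nat.cast_nonneg _) (Real.sqrt_nonneg _)
  have hfib : ∀ y : {j // j ∉ J} → ℤˣ,
      (((X.filter fun x => r x = y).card : ℝ)) * ((D : ℝ) * Real.sqrt (D : ℝ)) ≤ C * 2 ^ D := by
    intro y
    by_cases hne : (X.filter fun x => r x = y).Nonempty
    · obtain ⟨x0, hx0⟩ := hne
      rw [mem_filter] at hx0
      have hx0c : sdot x0 w = c := (mem_filter.1 hx0.1).2
      have hcomp : ∀ x : κ → ℤˣ, r x = y →
          ∑ j ∈ Jᶜ, ((x j : ℤ) : ℝ) * w j = ∑ j ∈ Jᶜ, ((x0 j : ℤ) : ℝ) * w j := by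
        intro x hx
        apply Finset.sum_congr rfl
        intro j hj
        have hj' : j ∉ J := Finset.mem_compl.1 hj
        have h1 : x j = y ⟨j, hj'⟩ := (congrFun hx ⟨j, hj'⟩)
        have h2 : x0 j = y ⟨j, hj'⟩ := (congrFun hx0.2 ⟨j, hj'⟩)
        rw [h1, h2]
      have hle : (X.filter fun x => r x = y).card ≤
          ((univ : Finset (Finset (Fin D))).filter
            fun S => ∑ i ∈ S, a i = ∑ i ∈ P x0, a i).card := by
        apply Finset.card_le_card_of_injOn P
        · intro x hx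
          have hx' := mem_filter.1 (Finset.mem_coe.1 hx)
          have hxc : sdot x w = c := (mem_filter.1 hx'.1).2
          have e1 := hkey x
          have e2 := hkey x0
          have e3 := hcomp x hx'.2
          simp only [coe_filter, mem_univ, true_and, Set.mem_ofPred_eq]
          linarith
        · intro x hx x' hx' hPP
          have hx1 := mem_filter.1 (Finset.mem_coe.1 hx)
          have hx2 := mem_filter.1 (Finset.mem_coe.1 hx')
          funext j
          by_cases hj : j ∈ J
          · obtain ⟨i, -, rfl⟩ := Finset.mem_image.1 hj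
            have t1 := hterm x i
            have t2 := hterm x' i
            have hPP' : P x = P x' := hPP
            rw [hPP'] at t1
            have h3 : ((x (e i) : ℤ) : ℝ) * w (e i) = ((x' (e i) : ℤ) : ℝ) * w (e i) :=
              t1.trans t2.symm
            have h4 : ((x (e i) : ℤ) : ℝ) = ((x' (e i) : ℤ) : ℝ) :=
              mul_right_cancel₀ (he0 i) h3
            exact Units.ext (by exact_mod_cast h4)
          · have h1 : x j = y ⟨j, hj⟩ := (congrFun hx1.2 ⟨j, hj⟩)
            have h2 : x' j = y ⟨j, hj⟩ := (congrFun hx2.2 ⟨j, hj⟩)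
            rw [h1, h2]
      have hb := hS D a ha_pos ha_mono (∑ i ∈ P x0, a i)
      have hle' : ((X.filter fun x => r x = y).card : ℝ) ≤
          (((univ : Finset (Finset (Fin D))).filter
            fun S => ∑ i ∈ S, a i = ∑ i ∈ P x0, a i).card : ℝ) := by
        exact_mod_cast hle
      exact (mul_le_mul_of_nonneg_right hle' hDnn).trans hb
    · rw [Finset.not_nonempty_iff_eq_empty] at hne
      rw [hne, Finset.card_empty, Nat.cast_zero, zero_mul]
      positivity
  have hsum : X.card = ∑ y : {j // j ∉ J} → ℤˣ, (X.filter fun x => r x = y).card :=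
    Finset.card_eq_sum_card_fiberwise (fun x _ => mem_univ (r x))
  have hcardY : Fintype.card ({j // j ∉ J} → ℤˣ) * 2 ^ D = 2 ^ Fintype.card κ := by
    rw [Fintype.card_fun, Fintype.card_units_int, ← pow_add]
    congr 1
    rw [Fintype.card_subtype_compl, Fintype.card_coe, hJcard]
    have hle : J.card ≤ Fintype.card κ := Finset.card_le_univ J
    omega
  rw [hsum, Nat.cast_sum, Finset.sum_mul]
  calc ∑ y : {j // j ∉ J} → ℤˣ,
        ((X.filter fun x => r x = y).card : ℝ) * ((D : ℝ) * Real.sqrt (D : ℝ))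
      ≤ ∑ _y : {j // j ∉ J} → ℤˣ, C * 2 ^ D := Finset.sum_le_sum (fun y _ => hfib y)
    _ = C * 2 ^ Fintype.card κ := by
        rw [Finset.sum_const, Finset.card_univ, nsmul_eq_mul]
        have h5 : ((Fintype.card ({j // j ∉ J} → ℤˣ) : ℕ) : ℝ) * 2 ^ D =
            2 ^ Fintype.card κ := by
          exact_mod_cast hcardY
        calc ((Fintype.card ({j // j ∉ J} → ℤˣ) : ℕ) : ℝ) * (C * 2 ^ D)
            = C * (((Fintype.card ({j // j ∉ J} → ℤˣ) : ℕ) : ℝ) * 2 ^ D) := by ring
          _ = C * 2 ^ Fintype.card κ := by rw [h5]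

end Vale.Agent.Lib.P160.H88
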